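import Vale.Agent.P022.H431.Sv.Defs

/-!
P022-L3, [SOLV], row [LAT]: a continuous representation of a compact group has integral entries
after a conjugation (a maximal determinant in the compact set of matrices with columns in the
invariant ball), and so it has a reduction.
-/

open NumberField Matrix

noncomputable section

namespace Vale.Agent.P022.H864.Sv

open Vale.Agent.P022

lemma compactSpace_GQ : CompactSpace GQ := by
  have h1 : Algebra.IsAlgebraic ℚ Qb := AlgebraicClosure.isAlgebraic ℚ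
  have h2 : IsAlgClosure ℚ Qb := ⟨inferInstance, inferInstance⟩
  have h3 : IsGalois ℚ Qb := IsAlgClosure.isGalois ℚ Qb
  infer_instance

/-- the entries of a continuous representation of a compact group are bounded -/
lemma exists_bound {G E : Type*} [Group G] [TopologicalSpace G] [CompactSpace G]
    [NontriviallyNormedField E] (r : G →* GL (Fin 2) E) (hr : Continuous r) :
    ∃ C : ℝ, 0 < C ∧ ∀ g i j, ‖(r g : Matrix (Fin 2) (Fin 2) E) i j‖ ≤ C := by
  have h : ∀ i j : Fin 2, ∃ C : ℝ, ∀ g : G, ‖(r g : Matrix (Fin 2) (Fin 2) E) i j‖ ≤ C := by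
    intro i j
    obtain ⟨C, hC⟩ := isCompact_univ.exists_bound_of_continuousOn
      ((Units.continuous_val.comp hr).matrix_elem i j).continuousOn
    exact ⟨C, fun g => hC g (Set.mem_univ g)⟩
  choose C hC using h
  refine ⟨1 + ∑ i, ∑ j, |C i j|, by positivity, fun g i j => (hC i j g).trans ?_⟩
  have h1 : |C i j| ≤ ∑ j, |C i j| :=
    Finset.single_le_sum (f := fun j => |C i j|) (fun _ _ => abs_nonneg _) (Finset.mem_univ j)
  have h2 : ∑ j, |C i j| ≤ ∑ i, ∑ j, |C i j| :=
    Finset.single_le_sum (f := fun i => ∑ j, |C i j|)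
      (fun _ _ => Finset.sum_nonneg fun _ _ => abs_nonneg _) (Finset.mem_univ i)
  have := le_abs_self (C i j)
  linarith

/-- Cramer -/
lemma inv_mul_apply {E : Type*} [Field E] (P Q : Matrix (Fin 2) (Fin 2) E) (i j : Fin 2) :
    (P⁻¹ * Q) i j = (P.updateCol i (fun k => Q k j)).det * P.det⁻¹ := by
  have h1 : (P⁻¹ * Q) i j = (P⁻¹ *ᵥ (fun k => Q k j)) i := rfl
  rw [h1, Matrix.inv_def, Matrix.smul_mulVec, ← Matrix.cramer_eq_adjugate_mulVec, Pi.smul_apply,
    Matrix.cramer_apply, Ring.inverse_eq_inv', smul_eq_mul, mul_comm]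

/-- **the stable lattice**: conjugation to integral entries -/
theorem exists_conj {G E : Type*} [Group G] [TopologicalSpace G] [CompactSpace G]
    [NontriviallyNormedField E] [ProperSpace E] (r : G →* GL (Fin 2) E) (hr : Continuous r) :
    ∃ P : Matrix (Fin 2) (Fin 2) E, P.det ≠ 0 ∧
      ∀ g i j, ‖(P⁻¹ * ((r g : Matrix (Fin 2) (Fin 2) E) * P)) i j‖ ≤ 1 := by
  obtain ⟨C, hC0, hC⟩ := exists_bound r hr
  let S : Set (Fin 2 → Fin 2 → E) :=
    {P | ∀ g i j, ‖∑ k, (r g : Matrix (Fin 2) (Fin 2) E) i k * P k j‖ ≤ 1}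
  have hScl : IsClosed S := by
    have : S = ⋂ g, ⋂ i, ⋂ j,
        {P | ‖∑ k, (r g : Matrix (Fin 2) (Fin 2) E) i k * P k j‖ ≤ 1} := by
      ext P; simp [S]
    rw [this]
    refine isClosed_iInter fun g => isClosed_iInter fun i => isClosed_iInter fun j => ?_
    refine isClosed_le (Continuous.norm ?_) continuous_const
    refine continuous_finsetSum _ fun k _ => continuous_const.mul ?_
    exact (continuous_apply j).comp (continuous_apply k)
  have hSb : S ⊆ Metric.closedBall 0 1 := by
    intro P hP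
    rw [mem_closedBall_zero_iff, pi_norm_le_iff_of_nonneg zero_le_one]
    intro i
    rw [pi_norm_le_iff_of_nonneg zero_le_one]
    intro j
    have := hP 1 i j
    simpa [Matrix.one_apply] using this
  have hSc : IsCompact S := (isCompact_closedBall _ _).of_isClosed_subset hScl hSb
  have hdc : Continuous fun P : Fin 2 → Fin 2 → E => ‖(Matrix.of P).det‖ := by
    refine Continuous.norm ?_
    simp only [Matrix.det_fin_two, Matrix.of_apply]
    fun_prop
  obtain ⟨c, hc0, hc⟩ : ∃ c : E, c ≠ 0 ∧ ‖c‖ ≤ C⁻¹ := by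
    obtain ⟨c, h1, h2⟩ := NormedField.exists_norm_lt E (inv_pos.2 hC0)
    exact ⟨c, norm_pos_iff.1 h1, h2.le⟩
  have hcS : (fun i j => if i = j then c else 0 : Fin 2 → Fin 2 → E) ∈ S := by
    intro g i j
    simp only [mul_ite, mul_zero, Finset.sum_ite_eq', Finset.mem_univ, if_true]
    rw [norm_mul]
    calc _ ≤ C * C⁻¹ := mul_le_mul (hC g i j) hc (norm_nonneg _) hC0.le
      _ = 1 := mul_inv_cancel₀ hC0.ne'
  obtain ⟨P, hPS, hP⟩ := hSc.exists_isMaxOn ⟨_, hcS⟩ hdc.continuousOn
  have hdet : (Matrix.of P).det ≠ 0 := by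
    have h1 := hP hcS
    have h2 : (Matrix.of (fun i j => if i = j then c else 0 : Fin 2 → Fin 2 → E)).det
        = c * c := by
      simp [Matrix.det_fin_two]
    have h3 : 0 < ‖c * c‖ := norm_pos_iff.2 (mul_ne_zero hc0 hc0)
    simp only [Set.mem_ofPred_eq, h2] at h1
    exact norm_pos_iff.1 (h3.trans_le h1)
  refine ⟨Matrix.of P, hdet, fun g i j => ?_⟩
  rw [inv_mul_apply, norm_mul, norm_inv, ← div_eq_mul_inv, div_le_one (norm_pos_iff.2 hdet)]
  set Q : Matrix (Fin 2) (Fin 2) E := (r g : Matrix (Fin 2) (Fin 2) E) * Matrix.of P with hQ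
  have hmem : (fun a b => ((Matrix.of P).updateCol i (fun k => Q k j)) a b) ∈ S := by
    intro h a b
    by_cases hb : b = i
    · subst hb
      have h1 : ∑ k, (r h : Matrix (Fin 2) (Fin 2) E) a k *
          ((Matrix.of P).updateCol b (fun k => Q k j)) k b =
          ∑ k, (r (h * g) : Matrix (Fin 2) (Fin 2) E) a k * P k j := by
        simp only [Matrix.updateCol_self]
        have h2 : ((r h : Matrix (Fin 2) (Fin 2) E) * Q) a j =
            ((r (h * g) : Matrix (Fin 2) (Fin 2) E) * Matrix.of P) a j := by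
          rw [hQ, ← Matrix.mul_assoc, map_mul]
          rfl
        simpa [Matrix.mul_apply] using h2
      rw [h1]
      exact hPS _ _ _
    · have h1 : ∑ k, (r h : Matrix (Fin 2) (Fin 2) E) a k *
          ((Matrix.of P).updateCol i (fun k => Q k j)) k b =
          ∑ k, (r h : Matrix (Fin 2) (Fin 2) E) a k * P k b := by
        refine Finset.sum_congr rfl fun k _ => ?_
        rw [Matrix.updateCol_ne hb]
        rfl
      rw [h1]
      exact hPS _ _ _
  exact hP hmem

/-- the norm of `E` is ultrametric -/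
lemma ultra (E : Type*) [NontriviallyNormedField E] [NormedAlgebra ℚ_[2] E] :
    IsUltrametricDist E := by
  refine IsUltrametricDist.isUltrametricDist_of_forall_norm_natCast_le_one fun n => ?_
  rw [← map_natCast (algebraMap ℚ_[2] E) n, norm_algebraMap']
  exact IsUltrametricDist.norm_natCast_le_one ℚ_[2] n

/-- the ring of integers -/
def intRing (E : Type*) [NontriviallyNormedField E] [IsUltrametricDist E] : Subring E where
  carrier := {x | ‖x‖ ≤ 1}
  mul_mem' {x y} hx hy := by
    simp only [Set.mem_ofPred_eq, norm_mul] at *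
    exact mul_le_one₀ hx (norm_nonneg _) hy
  one_mem' := by simp
  add_mem' {x y} hx hy := (IsUltrametricDist.norm_add_le_max x y).trans (max_le hx hy)
  zero_mem' := by simp
  neg_mem' {x} hx := by simpa using hx

lemma mem_intRing {E : Type*} [NontriviallyNormedField E] [IsUltrametricDist E] (x : E) :
    x ∈ intRing E ↔ ‖x‖ ≤ 1 := Iff.rfl

/-- the maximal ideal -/
def maxId (E : Type*) [NontriviallyNormedField E] [IsUltrametricDist E] : Ideal (intRing E) where
  carrier := {x | ‖(x : E)‖ < 1}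
  add_mem' {x y} hx hy :=
    (IsUltrametricDist.norm_add_le_max (x : E) (y : E)).trans_lt (max_lt hx hy)
  zero_mem' := by simp
  smul_mem' c x hx := by
    simp only [Set.mem_ofPred_eq, smul_eq_mul, Subring.coe_mul, norm_mul] at *
    exact (mul_le_of_le_one_left (norm_nonneg _) c.2).trans_lt hx

lemma mem_maxId {E : Type*} [NontriviallyNormedField E] [IsUltrametricDist E] (x : intRing E) :
    x ∈ maxId E ↔ ‖(x : E)‖ < 1 := Iff.rfl

lemma isMaximal_maxId (E : Type*) [NontriviallyNormedField E] [IsUltrametricDist E] :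
    (maxId E).IsMaximal := by
  rw [Ideal.isMaximal_iff]
  refine ⟨fun h => ?_, fun J x _ hx hxJ => ?_⟩
  · rw [mem_maxId] at h
    simp at h
  · rw [mem_maxId, not_lt] at hx
    have h1 : ‖(x : E)‖ = 1 := le_antisymm x.2 hx
    have h0 : (x : E) ≠ 0 := by
      intro h
      rw [h, norm_zero] at h1
      exact zero_ne_one h1
    have h2 : (x : E)⁻¹ ∈ intRing E := by
      rw [mem_intRing, norm_inv, h1, inv_one]
    have h3 : (1 : intRing E) = ⟨(x : E)⁻¹, h2⟩ * x := by
      ext
      simp [h0]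
    rw [h3]
    exact J.mul_mem_left _ hxJ

/-- **[LAT]** -/
theorem latStmt : Vale.Agent.P022.Sv.LatStmt := by
  intro E _ _ _ r hr
  have hu : IsUltrametricDist E := ultra E
  have hG : CompactSpace GQ := compactSpace_GQ
  have hpr : ProperSpace E := FiniteDimensional.proper ℚ_[2] E
  obtain ⟨P, hP, hint⟩ := exists_conj r hr
  have hPu : IsUnit P.det := isUnit_iff_ne_zero.2 hP
  have hmax := isMaximal_maxId E
  let k : Type := intRing E ⧸ maxId E
  let _ : Field k := Ideal.Quotient.field (maxId E)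
  let π : intRing E →+* k := Ideal.Quotient.mk (maxId E)
  have hπ0 : ∀ x : intRing E, π x = 0 ↔ ‖(x : E)‖ < 1 := fun x =>
    Ideal.Quotient.eq_zero_iff_mem
  have hch : CharP k 2 := by
    refine CharTwo.of_one_ne_zero_of_two_eq_zero one_ne_zero ?_
    have h1 : π 2 = 0 := by
      rw [hπ0]
      have h2 : ((2 : intRing E) : E) = algebraMap ℚ_[2] E 2 := by
        rw [map_ofNat]; rfl
      rw [h2, norm_algebraMap']
      have h3 := Padic.norm_p (p := 2)
      have h4 : ‖(2 : ℚ_[2])‖ = (2 : ℝ)⁻¹ := by simpa using h3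
      rw [h4]
      norm_num
    rwa [map_ofNat] at h1
  -- the integral representation
  let ι : Matrix (Fin 2) (Fin 2) (intRing E) →+* Matrix (Fin 2) (Fin 2) E :=
    (intRing E).subtype.mapMatrix
  have hι : Function.Injective ι := by
    intro A A' h
    ext i j
    exact congrFun (congrFun h i) j
  let B0 : GQ → Matrix (Fin 2) (Fin 2) (intRing E) := fun g => Matrix.of fun i j =>
    ⟨(P⁻¹ * ((r g : Matrix (Fin 2) (Fin 2) E) * P)) i j, hint g i j⟩
  have hB0 : ∀ g, ι (B0 g) = P⁻¹ * ((r g : Matrix (Fin 2) (Fin 2) E) * P) := fun g => by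
    ext i j; rfl
  let B : GQ →* Matrix (Fin 2) (Fin 2) (intRing E) :=
    { toFun := B0
      map_one' := hι (by
        rw [hB0, map_one, map_one, Units.val_one, Matrix.one_mul, Matrix.nonsing_inv_mul P hPu])
      map_mul' := fun g h => hι (by
        rw [map_mul, hB0, hB0, hB0, map_mul, Units.val_mul]
        have h1 : P * P⁻¹ = 1 := Matrix.mul_nonsing_inv P hPu
        calc P⁻¹ * ((r g : Matrix (Fin 2) (Fin 2) E) * (r h : Matrix (Fin 2) (Fin 2) E) * P)
            = P⁻¹ * ((r g : Matrix (Fin 2) (Fin 2) E) * (1 * ((r h : Matrix (Fin 2) (Fin 2) E)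
              * P))) := by rw [Matrix.one_mul, Matrix.mul_assoc]
          _ = P⁻¹ * ((r g : Matrix (Fin 2) (Fin 2) E) * P) *
              (P⁻¹ * ((r h : Matrix (Fin 2) (Fin 2) E) * P)) := by
            rw [← h1]; simp only [Matrix.mul_assoc]) }
  have hB : ∀ g, ι (B g) = P⁻¹ * ((r g : Matrix (Fin 2) (Fin 2) E) * P) := hB0
  let ρ : GQ →* GL (Fin 2) k := ((π.mapMatrix : Matrix (Fin 2) (Fin 2) (intRing E) →+*
    Matrix (Fin 2) (Fin 2) k).toMonoidHom.comp B).toHomUnits
  have hρ : ∀ g, (ρ g : Matrix (Fin 2) (Fin 2) k) = π.mapMatrix (B g) := fun g => rfl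
  refine ⟨intRing E, k, inferInstance, hch, π, ρ, fun x => mem_intRing x,
    Ideal.Quotient.mk_surjective, hπ0, fun g => ⟨(B g).trace, (B g).det, ?_, ?_, ?_, ?_⟩⟩
  · have h1 : (((B g).trace : intRing E) : E) = (ι (B g)).trace := by
      simp [Matrix.trace, ι]
    rw [h1, hB, Matrix.trace_mul_comm, Matrix.mul_assoc, Matrix.mul_nonsing_inv P hPu,
      Matrix.mul_one]
  · have h1 : (((B g).det : intRing E) : E) = (ι (B g)).det :=
      RingHom.map_det (intRing E).subtype (B g)
    rw [h1, hB, Matrix.det_mul, Matrix.det_mul, mul_comm, mul_assoc, ← Matrix.det_mul,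
      Matrix.mul_nonsing_inv P hPu, Matrix.det_one, mul_one]
  · rw [hρ]
    simp [Matrix.trace]
  · rw [hρ]
    exact RingHom.map_det π (B g)

end Vale.Agent.P022.H864.Sv
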